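import Vale.Agent.P158B.Pei

namespace Vale.Agent.P158B

open MeasureTheory Filter Topology Finset

/-! Averages over the window (job Avg). -/

theorem Ev.and {p q : ℝ → ℕ → Prop} (hp : Ev p) (hq : Ev q) : Ev fun ε N => p ε N ∧ q ε N := sorry

theorem Ev.mono {p q : ℝ → ℕ → Prop} (hp : Ev p) (h : ∀ ε N, p ε N → q ε N) : Ev q := sorry

theorem Ev.of_forall {p : ℝ → ℕ → Prop} (h : ∀ ε N, p ε N) : Ev p := sorry

theorem Ev.all {ι : Type*} (s : Finset ι) {p : ι → ℝ → ℕ → Prop} (h : ∀ i ∈ s, Ev (p i)) :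
    Ev fun ε N => ∀ i ∈ s, p i ε N := sorry

theorem Ev.exists {p : ℝ → ℕ → Prop} (hp : Ev p) : ∃ ε N, p ε N := sorry

theorem ev_eps {e : ℝ} (he : 0 < e) : Ev fun ε _ => 0 < ε ∧ ε < e := sorry

/-- the window is large, and small compared with `ε N` -/
theorem ev_wd (k : ℕ) {c : ℝ} (hc : 0 < c) :
    Ev fun ε N => k ≤ wd ε N ∧ (wd ε N : ℝ) ≤ c * ε * N ∧ ε ^ 2 * N ≤ 2 * wd ε N := sorry

/-- points near the window are well inside the strip -/
theorem ev_inside (k : ℤ) : Ev fun ε N => ∀ z ∈ box (0, 0) (3 * wd ε N), |z.2| + k < N := sorry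

theorem ev_shift (d : V) : Ev fun ε N => ∀ z ∈ W ε N, z + d ∈ box (0, 0) (2 * wd ε N) := sorry

theorem neg_mem_W {ε : ℝ} {N : ℕ} {z : V} : -z ∈ W ε N ↔ z ∈ W ε N := sorry

theorem Av_mono {ε : ℝ} {N : ℕ} {f g : V → ℝ} (h : ∀ z ∈ W ε N, f z ≤ g z) :
    Av ε N f ≤ Av ε N g := sorry

theorem Av_const (ε : ℝ) (N : ℕ) (c : ℝ) : Av ε N (fun _ => c) = c := sorry

theorem Av_le {ε : ℝ} {N : ℕ} {f : V → ℝ} {c : ℝ} (h : ∀ z ∈ W ε N, f z ≤ c) : Av ε N f ≤ c := sorry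

theorem Av_add (ε : ℝ) (N : ℕ) (f g : V → ℝ) :
    Av ε N (fun z => f z + g z) = Av ε N f + Av ε N g := sorry

theorem Av_mul (ε : ℝ) (N : ℕ) (c : ℝ) (f : V → ℝ) :
    Av ε N (fun z => c * f z) = c * Av ε N f := sorry

theorem Av_sum {ι : Type*} (ε : ℝ) (N : ℕ) (s : Finset ι) (f : ι → V → ℝ) :
    Av ε N (fun z => ∑ i ∈ s, f i z) = ∑ i ∈ s, Av ε N (f i) := sorry

theorem Av_neg (ε : ℝ) (N : ℕ) (f : V → ℝ) : Av ε N (fun z => f (-z)) = Av ε N f := sorry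

theorem Av_flip (ε : ℝ) (N : ℕ) (f : V → ℝ) : Av ε N (fun z => f (-z.1, z.2)) = Av ε N f := sorry

theorem Av_swap (ε : ℝ) (N : ℕ) (f : V → ℝ) : Av ε N (fun z => f (z.2, z.1)) = Av ε N f := sorry

/-- shifting the base point changes the average of a bounded function very little -/
theorem Av_shift (d : V) (C : ℝ) {η : ℝ} (hη : 0 < η) : Ev fun ε N => ∀ f : V → ℝ,
    (∀ z ∈ box (0, 0) (2 * wd ε N), |f z| ≤ C) → |Av ε N (fun z => f (z + d)) - Av ε N f| ≤ η := sorry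

namespace Base

variable {B : Base}

theorem Small.mono {E F : Fam} {κ : ℝ} (h : B.Small F κ)
    (hEF : Ev fun ε N => ∀ z ∈ W ε N, ∀ ω, Nice ω → ω ∈ E ε N z → ω ∈ F ε N z) :
    B.Small E κ := sorry

theorem Small.le {E : Fam} {κ κ' : ℝ} (h : B.Small E κ) (hκ : κ ≤ κ') : B.Small E κ' := sorry

theorem Small.union {E F : Fam} {κ κ' : ℝ} (h : B.Small E κ) (h' : B.Small F κ') :
    B.Small (fun ε N z => E ε N z ∪ F ε N z) (κ + κ') := sorry

theorem Small.biUnion {ι : Type*} (s : Finset ι) {E : ι → Fam} {κ : ℝ}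
    (h : ∀ i ∈ s, B.Small (E i) κ) :
    B.Small (fun ε N z => ⋃ i ∈ s, E i ε N z) (s.card * κ) := sorry

theorem Small.shift {E : Fam} {κ : ℝ} (h : B.Small E κ) (d : V) (hκ : 0 < κ) :
    B.Small (fun ε N z => E ε N (z + d)) (2 * κ) := sorry

theorem Small.of_forall {E : Fam} {κ : ℝ}
    (h : Ev fun ε N => ∀ z ∈ W ε N, B.Pr (E ε N z) ≤ κ) : B.Small E κ := sorry

theorem Small.neg {E : Fam} {κ : ℝ} (h : B.Small E κ) :
    B.Small (fun ε N z => act gneg ⁻¹' E ε N (-z)) κ := sorry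

theorem Small.flip {E : Fam} {κ : ℝ} (h : B.Small E κ) :
    B.Small (fun ε N z => act gflip ⁻¹' E ε N (-z.1, z.2)) κ := sorry

/-- Markov's inequality in averaged form -/
theorem Small.markov {f : ℝ → ℕ → V → Env → ℝ} {a c : ℝ} (hc : 0 < c)
    (hi : ∀ ε N z, Integrable (f ε N z) B.P) (h0 : ∀ ε N z ω, 0 ≤ f ε N z ω)
    (h : Ev fun ε N => Av ε N (fun z => B.Ex (f ε N z)) ≤ a) :
    B.Small (fun ε N z => {ω | c ≤ f ε N z ω}) (a / c) := sorry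

theorem Tiny.mono {E F : Fam} (h : B.Tiny F)
    (hEF : Ev fun ε N => ∀ z ∈ W ε N, ∀ ω, Nice ω → ω ∈ E ε N z → ω ∈ F ε N z) :
    B.Tiny E := sorry

theorem Tiny.shift {E : Fam} (h : B.Tiny E) (d : V) : B.Tiny fun ε N z => E ε N (z + d) := sorry

theorem Tiny.biUnion {ι : Type*} (s : Finset ι) {E : ι → Fam} (h : ∀ i ∈ s, B.Tiny (E i)) :
    B.Tiny fun ε N z => ⋃ i ∈ s, E i ε N z := sorry

/-- a bound on the sum over a fixed pattern of offsets bounds the average -/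
theorem small_of_pattern {E : Fam} (s : Finset V) (hs : s.Nonempty) {a : ℝ} {η : ℝ} (hη : 0 < η)
    (h : Ev fun ε N => Av ε N (fun z => ∑ d ∈ s, B.Pr (E ε N (z + d))) ≤ a) :
    B.Small E (a / s.card + η) := sorry

/-- discrete one-sided maximal inequality: blocks of length `m` going to the right -/
theorem small_maximal {Y : ℝ → ℕ → V → Env → ℝ} {a c : ℝ} (hc : 0 < c) {m : ℕ} (hm : 0 < m)
    (hme : ∀ ε N z, Measurable (Y ε N z)) (hi : ∀ ε N z, Integrable (Y ε N z) B.P)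
    (h0 : ∀ ε N z ω, 0 ≤ Y ε N z ω)
    (h : Ev fun ε N => ∑ z ∈ box (0, 0) (2 * wd ε N), B.Ex (Y ε N z) ≤ a * (W ε N).card) :
    B.Small (fun ε N z => {ω | ∃ k : ℕ, 0 < k ∧ k * m ≤ wd ε N ∧
      c * k ≤ ∑ i ∈ range k, Y ε N (z.1 + i * m, z.2) ω}) (a / c) := sorry

end Base

end Vale.Agent.P158B
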