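import Vale.Agent.P158B.Defs

namespace Vale.Agent.P158B

open MeasureTheory Filter Topology Finset

/-! Basic facts on `cost` and `TA` (job BasicA). -/

instance countable_walk (x y : V) : Countable (Z2.Walk x y) := sorry

theorem adj_iff {x y : V} : Z2.Adj x y ↔
    y = (x.1 + 1, x.2) ∨ y = (x.1 - 1, x.2) ∨ y = (x.1, x.2 + 1) ∨ y = (x.1, x.2 - 1) := sorry

theorem n1_le_length {x y : V} (p : Z2.Walk x y) : n1 (y - x) ≤ p.length := sorry

theorem n1_le_of_mem_support {x y z : V} (p : Z2.Walk x y) (hz : z ∈ p.support) :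
    n1 (z - x) ≤ p.length := sorry

theorem cost_nonneg (ω : Env) {x y : V} (p : Z2.Walk x y) : 0 ≤ cost ω p := sorry

@[simp] theorem cost_nil (ω : Env) (x : V) : cost ω (SimpleGraph.Walk.nil : Z2.Walk x x) = 0 := sorry

@[simp] theorem cost_cons (ω : Env) {x y z : V} (h : Z2.Adj x y) (p : Z2.Walk y z) :
    cost ω (SimpleGraph.Walk.cons h p) = ω s(x, y) + cost ω p := sorry

@[simp] theorem cost_append (ω : Env) {x y z : V} (p : Z2.Walk x y) (q : Z2.Walk y z) :
    cost ω (p.append q) = cost ω p + cost ω q := sorry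

@[simp] theorem cost_reverse (ω : Env) {x y : V} (p : Z2.Walk x y) :
    cost ω p.reverse = cost ω p := sorry

@[simp] theorem cost_copy (ω : Env) {x y x' y' : V} (p : Z2.Walk x y) (h : x = x') (h' : y = y') :
    cost ω (p.copy h h') = cost ω p := sorry

theorem cost_bypass_le (ω : Env) {x y : V} (p : Z2.Walk x y) : cost ω p.bypass ≤ cost ω p := sorry

theorem cost_mono {ω ω' : Env} (h : ∀ e, ω e ≤ ω' e) {x y : V} (p : Z2.Walk x y) :
    cost ω p ≤ cost ω' p := sorry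

theorem cost_congr {ω ω' : Env} {x y : V} (p : Z2.Walk x y) (h : ∀ e ∈ p.edges, ω e = ω' e) :
    cost ω p = cost ω' p := sorry

/-- lowering: a walk containing all the edges of `S` gains at least the total amount -/
theorem cost_lower_le {ω ω' : Env} (h : ∀ e, ω' e ≤ ω e) {x y : V} (p : Z2.Walk x y)
    (S : Finset (Sym2 V)) (hS : ∀ e ∈ S, e ∈ p.edges) :
    cost ω' p + ∑ e ∈ S, ((ω e : ℝ) - ω' e) ≤ cost ω p := sorry

/-- a path gains at most the total amount -/
theorem cost_le_lower {ω ω' : Env} (h : ∀ e, ω' e ≤ ω e) {x y : V} (p : Z2.Walk x y)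
    (hp : p.IsPath) (S : Finset (Sym2 V)) (hS : ∀ e, e ∉ S → ω' e = ω e) :
    cost ω p ≤ cost ω' p + ∑ e ∈ S, ((ω e : ℝ) - ω' e) := sorry

theorem In.append {A : Set V} {x y z : V} {p : Z2.Walk x y} {q : Z2.Walk y z} :
    In A (p.append q) ↔ In A p ∧ In A q := sorry

theorem In.reverse {A : Set V} {x y : V} {p : Z2.Walk x y} : In A p.reverse ↔ In A p := sorry

theorem In.mono {A B : Set V} (h : A ⊆ B) {x y : V} {p : Z2.Walk x y} (hp : In A p) : In B p := sorry

theorem In.bypass {A : Set V} {x y : V} {p : Z2.Walk x y} (hp : In A p) : In A p.bypass := sorry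

theorem In.edges {A : Set V} {x y : V} {p : Z2.Walk x y} (hp : In A p) :
    ∀ e ∈ p.edges, e ∈ edgesIn A := sorry

theorem TA_nonneg (A : Set V) (ω : Env) (x y : V) : 0 ≤ TA A ω x y := sorry

theorem TA_le {A : Set V} (ω : Env) {x y : V} (p : Z2.Walk x y) (hp : In A p) :
    TA A ω x y ≤ cost ω p := sorry

theorem le_TA {A : Set V} {ω : Env} {x y : V} (hc : Conn A x y) {c : ℝ}
    (h : ∀ p : Z2.Walk x y, p.IsPath → In A p → c ≤ cost ω p) : c ≤ TA A ω x y := sorry

theorem TA_self {A : Set V} (ω : Env) (x : V) : TA A ω x x = 0 := sorry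

theorem TA_comm (A : Set V) (ω : Env) (x y : V) : TA A ω x y = TA A ω y x := sorry

theorem TA_tri {A : Set V} (ω : Env) {x y z : V} (h1 : Conn A x y) (h2 : Conn A y z) :
    TA A ω x z ≤ TA A ω x y + TA A ω y z := sorry

theorem TA_anti {A B : Set V} (h : A ⊆ B) (ω : Env) {x y : V} (hc : Conn A x y) :
    TA B ω x y ≤ TA A ω x y := sorry

theorem TA_mono {ω ω' : Env} (h : ∀ e, ω e ≤ ω' e) (A : Set V) (x y : V) :
    TA A ω x y ≤ TA A ω' x y := sorry

theorem TA_congr {ω ω' : Env} {A : Set V} (h : ∀ e ∈ edgesIn A, ω e = ω' e) (x y : V) :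
    TA A ω x y = TA A ω' x y := sorry

theorem TA_le_lower {ω ω' : Env} (h : ∀ e, ω' e ≤ ω e) (A : Set V) (x y : V)
    (S : Finset (Sym2 V)) (hS : ∀ e, e ∉ S → ω' e = ω e) :
    TA A ω x y ≤ TA A ω' x y + ∑ e ∈ S, ((ω e : ℝ) - ω' e) := sorry

theorem measurable_cost {x y : V} (p : Z2.Walk x y) : Measurable fun ω => cost ω p := sorry

theorem measurable_TA (A : Set V) (x y : V) : Measurable fun ω => TA A ω x y := sorry

theorem Conn.symm {A : Set V} {x y : V} (h : Conn A x y) : Conn A y x := sorry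

theorem Conn.trans {A : Set V} {x y z : V} (h : Conn A x y) (h' : Conn A y z) : Conn A x z := sorry

theorem Conn.mono {A B : Set V} (hAB : A ⊆ B) {x y : V} (h : Conn A x y) : Conn B x y := sorry

/-- straight horizontal walk -/
theorem exists_hwalk (h x x' : ℤ) (hx : x ≤ x') : ∃ p : Z2.Walk (x, h) (x', h),
    In (Rect x x' h h) p ∧ (p.length : ℤ) = x' - x ∧ ∀ ω, cost ω p = hs ω h x x' := sorry

/-- straight vertical walk -/
theorem exists_vwalk (x h h' : ℤ) (hh : h ≤ h') : ∃ p : Z2.Walk (x, h) (x, h'),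
    In (Rect x x h h') p ∧ (p.length : ℤ) = h' - h ∧ ∀ ω, cost ω p = vs ω x h h' := sorry

theorem conn_rect {a b c d : ℤ} {x y : V} (hx : x ∈ Rect a b c d) (hy : y ∈ Rect a b c d) :
    Conn (Rect a b c d) x y := sorry

theorem conn_st {a b : ℤ} {x y : V} (hx : x ∈ St a b) (hy : y ∈ St a b) : Conn (St a b) x y := sorry

theorem conn_univ (x y : V) : Conn Set.univ x y := sorry

theorem hs_nonneg (ω : Env) (h x x' : ℤ) : 0 ≤ hs ω h x x' := sorry

theorem vs_nonneg (ω : Env) (x h h' : ℤ) : 0 ≤ vs ω x h h' := sorry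

theorem hs_mono (ω : Env) (h : ℤ) {a b c d : ℤ} (h1 : a ≤ b) (h2 : c ≤ d) :
    hs ω h b c ≤ hs ω h a d := sorry

theorem hs_add (ω : Env) (h : ℤ) {a b c : ℤ} (h1 : a ≤ b) (h2 : b ≤ c) :
    hs ω h a c = hs ω h a b + hs ω h b c := sorry

theorem TA_le_hs {A : Set V} (ω : Env) {h a b x x' : ℤ} (hA : Rect a b h h ⊆ A)
    (hx : a ≤ x ∧ x ≤ b) (hx' : a ≤ x' ∧ x' ≤ b) : TA A ω (x, h) (x', h) ≤ hs ω h a b := sorry

theorem TA_le_vs {A : Set V} (ω : Env) {x a b h h' : ℤ} (hA : Rect x x a b ⊆ A)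
    (hx : a ≤ h ∧ h ≤ b) (hx' : a ≤ h' ∧ h' ≤ b) : TA A ω (x, h) (x, h') ≤ vs ω x a b := sorry

theorem mem_box {z y : V} {R : ℤ} : y ∈ box z R ↔ |y.1 - z.1| ≤ R ∧ |y.2 - z.2| ≤ R := sorry

theorem card_box (z : V) (R : ℕ) : (box z R).card = (2 * R + 1) ^ 2 := sorry

theorem card_boxE_le (z : V) (R : ℕ) : (boxE z R).card ≤ 2 * (2 * R + 1) ^ 2 := sorry

theorem mem_boxE_of_adj {z x y : V} {R : ℤ} (h : Z2.Adj x y) (hx : x ∈ box z R) (hy : y ∈ box z R) :
    s(x, y) ∈ boxE z R := sorry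

/-- the edges of a walk inside the box are in `boxE` -/
theorem edges_subset_boxE {z x y : V} {R : ℤ} (p : Z2.Walk x y) (hp : ∀ a ∈ p.support, a ∈ box z R) :
    ∀ e ∈ p.edges, e ∈ boxE z R := sorry

theorem hs_le_bsum (ω : Env) {z : V} {R h a b : ℤ} (hh : |h - z.2| ≤ R) (ha : z.1 - R ≤ a)
    (hb : b ≤ z.1 + R) : hs ω h a b ≤ bsum ω z R := sorry

theorem vs_le_bsum (ω : Env) {z : V} {R x a b : ℤ} (hx : |x - z.1| ≤ R) (ha : z.2 - R ≤ a)
    (hb : b ≤ z.2 + R) : vs ω x a b ≤ bsum ω z R := sorry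

/-- two points of a box are joined, inside the rectangle they span, at cost `≤ 2 bsum` -/
theorem TA_le_bsum {A : Set V} (ω : Env) {z x y : V} {R : ℤ} (hx : x ∈ box z R) (hy : y ∈ box z R)
    (hA : Rect (min x.1 y.1) (max x.1 y.1) (min x.2 y.2) (max x.2 y.2) ⊆ A) :
    TA A ω x y ≤ 2 * bsum ω z R := sorry

theorem measurable_hs (h x x' : ℤ) : Measurable fun ω => hs ω h x x' := sorry

theorem measurable_vs (x h h' : ℤ) : Measurable fun ω => vs ω x h h' := sorry

theorem measurable_bsum (z : V) (R : ℤ) : Measurable fun ω => bsum ω z R := sorry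

end Vale.Agent.P158B
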