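import Vale.Agent.P158B.BasicA

namespace Vale.Agent.P158B

open MeasureTheory Filter Topology Finset

/-! Geodesics, splitting of walks, `up` and `dn` (job BasicB). -/

theorem split_first {x y : V} (p : Z2.Walk x y) (Q : V → Prop) (h : ∃ z ∈ p.support, Q z) :
    ∃ (z : V) (p1 : Z2.Walk x z) (p2 : Z2.Walk z y), Q z ∧ p = p1.append p2 ∧
      ∀ a ∈ p1.support.dropLast, ¬ Q a := sorry

theorem split_last {x y : V} (p : Z2.Walk x y) (Q : V → Prop) (h : ∃ z ∈ p.support, Q z) :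
    ∃ (z : V) (p1 : Z2.Walk x z) (p2 : Z2.Walk z y), Q z ∧ p = p1.append p2 ∧
      ∀ a ∈ p2.support.tail, ¬ Q a := sorry

/-- the first `n` steps -/
theorem split_len {x y : V} (p : Z2.Walk x y) (n : ℕ) (hn : n ≤ p.length) :
    ∃ (z : V) (p1 : Z2.Walk x z) (p2 : Z2.Walk z y), p = p1.append p2 ∧ p1.length = n := sorry

/-- discrete intermediate values of the height -/
theorem exists_row {x y : V} (p : Z2.Walk x y) (h : ℤ) (h1 : x.2 ≤ h) (h2 : h ≤ y.2) :
    ∃ z ∈ p.support, z.2 = h := sorry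

/-- last visit of row `h` of a walk ending at or above `h` -/
theorem split_last_row {x y : V} (p : Z2.Walk x y) (h : ℤ) (h1 : ∃ z ∈ p.support, z.2 ≤ h)
    (h2 : h ≤ y.2) : ∃ (a : ℤ) (p1 : Z2.Walk x (a, h)) (p2 : Z2.Walk (a, h) y),
      p = p1.append p2 ∧ ∀ b ∈ p2.support.tail, h < b.2 := sorry

/-- first visit of row `h` of a walk starting at or below `h` -/
theorem split_first_row {x y : V} (p : Z2.Walk x y) (h : ℤ) (h1 : x.2 ≤ h)
    (h2 : ∃ z ∈ p.support, h ≤ z.2) : ∃ (a : ℤ) (p1 : Z2.Walk x (a, h)) (p2 : Z2.Walk (a, h) y),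
      p = p1.append p2 ∧ ∀ b ∈ p1.support.dropLast, b.2 < h := sorry

theorem exists_geo {ω : Env} (hω : Nice ω) {A : Set V} {x y : V} (hc : Conn A x y) :
    ∃ p : Z2.Walk x y, Geo A ω p := sorry

/-- an optimal walk is a path when the weights are positive -/
theorem geo_of_cost_le {ω : Env} (hω : ∀ e, 0 < ω e) {A : Set V} {x y : V} (p : Z2.Walk x y)
    (hp : In A p) (h : cost ω p ≤ TA A ω x y) : Geo A ω p := sorry

theorem Geo.left {A : Set V} {ω : Env} {x y z : V} {p : Z2.Walk x y} {q : Z2.Walk y z}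
    (h : Geo A ω (p.append q)) : Geo A ω p := sorry

theorem Geo.right {A : Set V} {ω : Env} {x y z : V} {p : Z2.Walk x y} {q : Z2.Walk y z}
    (h : Geo A ω (p.append q)) : Geo A ω q := sorry

theorem Geo.reverse {A : Set V} {ω : Env} {x y : V} {p : Z2.Walk x y} (h : Geo A ω p) :
    Geo A ω p.reverse := sorry

theorem Geo.sub {A B : Set V} {ω : Env} {x y : V} {p : Z2.Walk x y} (h : Geo A ω p) (hBA : B ⊆ A)
    (hB : In B p) : Geo B ω p := sorry

theorem Geo.add {A : Set V} {ω : Env} {x y z : V} {p : Z2.Walk x y} (h : Geo A ω p)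
    (hz : z ∈ p.support) : TA A ω x z + TA A ω z y = TA A ω x y := sorry

/-- lowering edges of a geodesic keeps it a geodesic -/
theorem Geo.lower {A : Set V} {ω ω' : Env} {x y : V} {p : Z2.Walk x y} (h : Geo A ω p)
    (hle : ∀ e, ω' e ≤ ω e) (hS : ∀ e, e ∉ p.edges → ω' e = ω e) : Geo A ω' p := sorry

theorem exists_geo_thru {ω : Env} (hω : Nice ω) {N u v : ℤ} {z : V} (hz : z ∈ St (-N) N)
    (h : Thru N ω u v z) : ∃ (p : Z2.Walk (v, -N) z) (q : Z2.Walk z (u, N)),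
      Geo (St (-N) N) ω (p.append q) := sorry

theorem measurable_up (N u : ℤ) (z : V) : Measurable fun ω => up N ω u z := sorry

theorem measurable_dn (N v : ℤ) (z : V) : Measurable fun ω => dn N ω v z := sorry

theorem measurable_TS (N : ℤ) (x y : V) : Measurable fun ω => TS N ω x y := sorry

theorem measurable_T (x y : V) : Measurable fun ω => T ω x y := sorry

theorem T_le_TA {A : Set V} (ω : Env) {x y : V} (hc : Conn A x y) : T ω x y ≤ TA A ω x y := sorry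

theorem T_le_cost (ω : Env) {x y : V} (p : Z2.Walk x y) : T ω x y ≤ cost ω p := sorry

theorem T_tri (ω : Env) (x y z : V) : T ω x z ≤ T ω x y + T ω y z := sorry

theorem up_le {N : ℤ} (ω : Env) (u : ℤ) {y z : V} (h1 : y.2 ≤ z.2) (h2 : z.2 ≤ N) :
    up N ω u y ≤ TA (St y.2 N) ω y z + up N ω u z := sorry

theorem dn_le {N : ℤ} (ω : Env) (v : ℤ) {y z : V} (h1 : -N ≤ y.2) (h2 : y.2 ≤ z.2) :
    dn N ω v z ≤ dn N ω v y + TA (St (-N) z.2) ω y z := sorry

theorem TS_le_up {N : ℤ} (ω : Env) (u : ℤ) {y z : V} (hy : y ∈ St (-N) N) (hz : z ∈ St (-N) N) :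
    TS N ω y (u, N) ≤ TS N ω y z + up N ω u z := sorry

theorem TS_le_dn {N : ℤ} (ω : Env) (v : ℤ) {y z : V} (hy : y ∈ St (-N) N) (hz : z ∈ St (-N) N) :
    TS N ω (v, -N) z ≤ dn N ω v y + TS N ω y z := sorry

theorem TS_le_three {N : ℤ} (ω : Env) (u v : ℤ) {y z : V} {A : Set V} (hA : A ⊆ St (-N) N)
    (hc : Conn A y z) : TS N ω (v, -N) (u, N) ≤ dn N ω v y + TA A ω y z + up N ω u z := sorry

theorem abs_up_sub_le {N : ℤ} (ω : Env) (u : ℤ) {h a b x x' : ℤ} (hh : h ≤ N)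
    (hx : a ≤ x ∧ x ≤ b) (hx' : a ≤ x' ∧ x' ≤ b) :
    |up N ω u (x, h) - up N ω u (x', h)| ≤ hs ω h a b := sorry

theorem abs_dn_sub_le {N : ℤ} (ω : Env) (v : ℤ) {h a b x x' : ℤ} (hh : -N ≤ h)
    (hx : a ≤ x ∧ x ≤ b) (hx' : a ≤ x' ∧ x' ≤ b) :
    |dn N ω v (x, h) - dn N ω v (x', h)| ≤ hs ω h a b := sorry

theorem exists_opt {ω : Env} (hω : Nice ω) {N : ℤ} (u : ℤ) {y : V} {h : ℤ} (h1 : y.2 ≤ h)
    (h2 : h ≤ N) : ∃ x, Opt N ω u y (x, h) := sorry

/-- `up` only reads the edges in the rows `z.2 .. N` -/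
theorem up_congr {ω ω' : Env} {N : ℤ} {z : V} (h : ∀ e ∈ edgesIn (St z.2 N), ω e = ω' e) (u : ℤ) :
    up N ω u z = up N ω' u z := sorry

theorem dn_congr {ω ω' : Env} {N : ℤ} {z : V} (h : ∀ e ∈ edgesIn (St (-N) z.2), ω e = ω' e)
    (v : ℤ) : dn N ω v z = dn N ω' v z := sorry

/-- a lowerable edge set extracted from a path satisfying the Peierls property -/
theorem Base.Pei.extract (B : Base) {ω : Env} {x y : V} {n k : ℕ} (h : B.Pei ω x n)
    (p : Z2.Walk x y) (hp : p.IsPath) (hn : p.length = n) (hk : 2 * k ≤ n) :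
    ∃ S : Finset (Sym2 V), S.card = k ∧ ∀ e ∈ S, e ∈ p.edges ∧ B.t2 < ω e ∧ ω e ≤ B.t3 := sorry

/-- cheap paths are short -/
theorem Base.PeiBox.length_le (B : Base) {ω : Env} {z x y : V} {R : ℤ} {n0 : ℕ}
    (h : B.PeiBox ω z R n0) (hx : x ∈ box z R) (p : Z2.Walk x y) (hp : p.IsPath) :
    (p.length : ℝ) ≤ n0 + 2 * cost ω p / B.t2 := sorry

theorem Base.PeiBox.le_T (B : Base) {ω : Env} {z x : V} {R : ℤ} {n0 : ℕ}
    (h : B.PeiBox ω z R n0) (hx : x ∈ box z R) (y : V) :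
    (n1 (y - x) : ℝ) ≤ n0 + 2 * T ω x y / B.t2 := sorry

end Vale.Agent.P158B
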