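import Vale.Agent.P158B.BasicB

namespace Vale.Agent.P158B

open MeasureTheory Filter Topology Finset

/-! Planarity: crossing in a strip, and the Monge inequality (job Cross). -/

theorem strip_cross {a b x x' u u' : ℤ} (hab : a < b) (hx : x ≤ x') (hu : u ≤ u')
    (p : Z2.Walk (x, a) (u', b)) (q : Z2.Walk (x', a) (u, b)) (hp : In (St a b) p)
    (hq : In (St a b) q) : ∃ z ∈ p.support, z ∈ q.support := sorry

theorem monge (ω : Env) {a b x x' u u' : ℤ} (hab : a < b) (hx : x ≤ x') (hu : u ≤ u') :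
    TA (St a b) ω (x, a) (u, b) + TA (St a b) ω (x', a) (u', b) ≤
      TA (St a b) ω (x, a) (u', b) + TA (St a b) ω (x', a) (u, b) := sorry

theorem D_mono (ω : Env) {N u u' h x x' : ℤ} (hh : h < N) (hu : u ≤ u') (hx : x ≤ x') :
    D N ω u u' (x, h) ≤ D N ω u u' (x', h) := sorry

theorem D'_mono (ω : Env) {N v v' h x x' : ℤ} (hh : -N < h) (hv : v ≤ v') (hx : x ≤ x') :
    D' N ω v v' (x, h) ≤ D' N ω v v' (x', h) := sorry

/-- increments are monotone in the pair of targets -/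
theorem D_incr_mono (ω : Env) {N a u u' b h x x' : ℤ} (hh : h < N) (h1 : a ≤ u) (h1' : a ≤ u')
    (h2 : u ≤ b) (h2' : u' ≤ b) (hx : x ≤ x') :
    |D N ω u u' (x', h) - D N ω u u' (x, h)| ≤ D N ω a b (x', h) - D N ω a b (x, h) := sorry

theorem D'_incr_mono (ω : Env) {N a v v' b h x x' : ℤ} (hh : -N < h) (h1 : a ≤ v) (h1' : a ≤ v')
    (h2 : v ≤ b) (h2' : v' ≤ b) (hx : x ≤ x') :
    |D' N ω v v' (x', h) - D' N ω v v' (x, h)| ≤ D' N ω a b (x', h) - D' N ω a b (x, h) := sorry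

theorem S_mono (ω : Env) {N u u' m : ℤ} {z : V} (hh : z.2 < N) (hu : u ≤ u') (hm : 0 ≤ m) :
    S N ω u z m ≤ S N ω u' z m := sorry

theorem S_anti (ω : Env) {N u u' m : ℤ} {z : V} (hh : z.2 < N) (hu : u ≤ u') (hm : m ≤ 0) :
    S N ω u' z m ≤ S N ω u z m := sorry

/-- elements of lower class that are left of `y` stay left of an optimal last visit -/
theorem Opt.D_le {ω : Env} (hω : Nice ω) {N u u0 : ℤ} {y z : V} (h : Opt N ω u y z)
    (h1 : y.2 ≤ z.2) (h2 : z.2 < N) (hu : u0 < u) :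
    D N ω u0 (u0 + 1) y ≤ D N ω u0 (u0 + 1) z := sorry

theorem Opt.le_D {ω : Env} (hω : Nice ω) {N u u0 : ℤ} {y z : V} (h : Opt N ω u y z)
    (h1 : y.2 ≤ z.2) (h2 : z.2 < N) (hu : u ≤ u0) :
    D N ω u0 (u0 + 1) z ≤ D N ω u0 (u0 + 1) y := sorry

theorem exists_opt_mono {ω : Env} (hω : Nice ω) {N : ℤ} {y : V} {h : ℤ} (h1 : y.2 ≤ h)
    (h2 : h < N) : ∃ ζ : ℤ → ℤ, Monotone ζ ∧ ∀ u, Opt N ω u y (ζ u, h) := sorry

/-- unimodality of `u ↦ up u y - up u z` -/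
theorem unimodal_min {ω : Env} (hω : Nice ω) {N u1 u u2 : ℤ} {y z : V} (h1 : y.2 ≤ z.2)
    (h2 : z.2 < N) (hu1 : u1 ≤ u) (hu2 : u ≤ u2) :
    min (up N ω u1 y - up N ω u1 z) (up N ω u2 y - up N ω u2 z) ≤ up N ω u y - up N ω u z := sorry

theorem unimodal_flux {ω : Env} (hω : Nice ω) {N u1 u2 : ℤ} {y z : V} (h1 : y.2 ≤ z.2)
    (h2 : z.2 < N) (hu : u1 ≤ u2) :
    ∑ u ∈ Ico u1 u2, |D N ω u (u + 1) z - D N ω u (u + 1) y| ≤
      2 * (TA (St y.2 N) ω y z -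
        min (up N ω u1 y - up N ω u1 z) (up N ω u2 y - up N ω u2 z)) := sorry

theorem sum_D (ω : Env) (N : ℤ) {u1 u2 : ℤ} (hu : u1 ≤ u2) (z : V) :
    ∑ u ∈ Ico u1 u2, D N ω u (u + 1) z = D N ω u1 u2 z := sorry

end Vale.Agent.P158B
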