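import Vale.Agent.P158B.Stmt

/-! Internal definitions for P158.  See notes/P158.md. -/

namespace Vale.Agent.P158B

open MeasureTheory Filter Topology Finset

/-- Environments: weights on all unordered pairs (non-edges are never used). -/
abbrev Env := Sym2 V → NNReal

noncomputable section

def cost (ω : Env) {x y : V} (p : Z2.Walk x y) : ℝ := (p.edges.map fun e => (ω e : ℝ)).sum

def In (A : Set V) {x y : V} (p : Z2.Walk x y) : Prop := ∀ z ∈ p.support, z ∈ A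

def Conn (A : Set V) (x y : V) : Prop := ∃ p : Z2.Walk x y, In A p

/-- passage time inside `A` (junk value `0` if no walk inside `A`) -/
def TA (A : Set V) (ω : Env) (x y : V) : ℝ := ⨅ p : {p : Z2.Walk x y // In A p}, cost ω p.1

def T (ω : Env) (x y : V) : ℝ := TA Set.univ ω x y

def St (a b : ℤ) : Set V := {z | a ≤ z.2 ∧ z.2 ≤ b}

def Rect (a b c d : ℤ) : Set V := {z | a ≤ z.1 ∧ z.1 ≤ b ∧ c ≤ z.2 ∧ z.2 ≤ d}

/-- the box `[x-R, x+R] × [h-R, h+r+R]` -/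
def bx (z : V) (R r : ℤ) : Set V := Rect (z.1 - R) (z.1 + R) (z.2 - R) (z.2 + r + R)

def box (z : V) (R : ℤ) : Finset V := Icc (z.1 - R) (z.1 + R) ×ˢ Icc (z.2 - R) (z.2 + R)

/-- all unordered pairs of points of `box z R` that are edges -/
def boxE (z : V) (R : ℤ) : Finset (Sym2 V) :=
  ((box z R).image fun y => s(y, (y.1 + 1, y.2))) ∪ ((box z R).image fun y => s(y, (y.1, y.2 + 1)))

def bsum (ω : Env) (z : V) (R : ℤ) : ℝ := ∑ e ∈ boxE z R, (ω e : ℝ)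

def n1 (z : V) : ℤ := |z.1| + |z.2|

def Nice (ω : Env) : Prop :=
  (∀ e, 0 < ω e) ∧ ∀ (x : V) (c : ℝ), ∃ n : ℕ, ∀ (y : V) (p : Z2.Walk x y),
    p.IsPath → n ≤ p.length → c ≤ cost ω p

def Geo (A : Set V) (ω : Env) {x y : V} (p : Z2.Walk x y) : Prop :=
  p.IsPath ∧ In A p ∧ cost ω p = TA A ω x y

/-- sum of the horizontal weights on row `h` between columns `x ≤ x'` -/
def hs (ω : Env) (h x x' : ℤ) : ℝ := ∑ i ∈ Ico x x', (ω s((i, h), (i + 1, h)) : ℝ)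

/-- sum of the vertical weights on column `x` between rows `h ≤ h'` -/
def vs (ω : Env) (x h h' : ℤ) : ℝ := ∑ j ∈ Ico h h', (ω s((x, j), (x, j + 1)) : ℝ)

/-- passage time from `z` to the top target `(u, N)` inside the rows `z.2 .. N` -/
def up (N : ℤ) (ω : Env) (u : ℤ) (z : V) : ℝ := TA (St z.2 N) ω z (u, N)

/-- passage time from the bottom target `(v, -N)` to `z` inside the rows `-N .. z.2` -/
def dn (N : ℤ) (ω : Env) (v : ℤ) (z : V) : ℝ := TA (St (-N) z.2) ω (v, -N) z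

def TS (N : ℤ) (ω : Env) (x y : V) : ℝ := TA (St (-N) N) ω x y

/-- `z` is on an optimal route from `(v,-N)` to `(u,N)` in the strip -/
def Thru (N : ℤ) (ω : Env) (u v : ℤ) (z : V) : Prop :=
  TS N ω (v, -N) z + TS N ω z (u, N) = TS N ω (v, -N) (u, N)

/-- `(x', h')` is an optimal last visit of row `h'` on the way from `y` to `(u,N)` -/
def Opt (N : ℤ) (ω : Env) (u : ℤ) (y : V) (z : V) : Prop :=
  up N ω u y = TA (St y.2 N) ω y z + up N ω u z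

/-! symmetries -/

def act (g : Z2 ≃g Z2) (ω : Env) : Env := fun e => ω (e.map g)

def gsh (a : V) : Z2 ≃g Z2 where
  toEquiv := Equiv.addRight a
  map_rel_iff' := by intro x y; simp [Z2]

def gneg : Z2 ≃g Z2 where
  toEquiv := Equiv.neg V
  map_rel_iff' := by
    intro x y
    simp only [Z2, Equiv.neg_apply, Prod.fst_neg, Prod.snd_neg]
    rw [show -x.1 - -y.1 = -(x.1 - y.1) by ring, show -x.2 - -y.2 = -(x.2 - y.2) by ring,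
      abs_neg, abs_neg]

def gflip : Z2 ≃g Z2 where
  toEquiv := (Equiv.neg ℤ).prodCongr (Equiv.refl ℤ)
  map_rel_iff' := by
    intro x y
    simp only [Z2, Equiv.prodCongr_apply, Prod.map_fst, Prod.map_snd, Equiv.neg_apply,
      Equiv.coe_refl, id]
    rw [show -x.1 - -y.1 = -(x.1 - y.1) by ring, abs_neg]

def gswap : Z2 ≃g Z2 where
  toEquiv := Equiv.prodComm ℤ ℤ
  map_rel_iff' := by
    intro x y
    simp only [Z2, Equiv.prodComm_apply, Prod.fst_swap, Prod.snd_swap]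
    rw [add_comm]

open Classical in
/-- resample the edges in `S` -/
def rs (S : Set (Sym2 V)) (ω ω' : Env) : Env := fun e => if e ∈ S then ω' e else ω e

/-- edges with both ends in `A` -/
def edgesIn (A : Set V) : Set (Sym2 V) := {e | ∀ z ∈ e, z ∈ A}

/-! probability -/

def law (G : Measure NNReal) [IsProbabilityMeasure G] : Measure Env := Measure.infinitePi fun _ => G

structure Base where
  G : Measure NNReal
  prob : IsProbabilityMeasure G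
  atomless : NullSingletonClass G
  int : Integrable (fun t : NNReal => (t : ℝ)) G
  μ : ℝ × ℝ → ℝ
  tc : ∀ v : ℝ × ℝ, ∀ᵐ ω ∂(@law G prob),
    Tendsto (fun n : ℕ => T ω (0, 0) (⌊(n : ℝ) * v.1⌋, ⌊(n : ℝ) * v.2⌋) / n) atTop (𝓝 (μ v))
  t1 : NNReal
  t2 : NNReal
  t3 : NNReal
  h01 : 0 < t1
  h12 : t1 < t2
  h23 : t2 < t3
  hlow : 0 < G.real (Set.Iio t1)
  hmid : G.real (Set.Ioc t2 t3)ᶜ ≤ 1 / 256

namespace Base

variable (B : Base)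

instance : IsProbabilityMeasure B.G := B.prob
instance : NullSingletonClass B.G := B.atomless

def P : Measure Env := law B.G

instance : IsProbabilityMeasure B.P := by unfold P law; infer_instance

def Pr (E : Set Env) : ℝ := B.P.real E

def Ex (f : Env → ℝ) : ℝ := ∫ ω, f ω ∂B.P

def m1 : ℝ := ∫ t, (t : ℝ) ∂B.G

def μv (z : V) : ℝ := B.μ ((z.1 : ℝ), (z.2 : ℝ))

def f (a : ℝ) : ℝ := B.μ (a, 1)

def μ1 : ℝ := B.μ (1, 0)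

/-- `s` is a subgradient of `f` at `a` -/
def Sub (a s : ℝ) : Prop := ∀ b, B.f a + s * (b - a) ≤ B.f b

/-- left derivative of `f` -/
def sm (a : ℝ) : ℝ := ⨆ t : {t : ℝ // 0 < t}, (B.f a - B.f (a - t)) / t

/-- right derivative of `f` -/
def sp (a : ℝ) : ℝ := ⨅ t : {t : ℝ // 0 < t}, (B.f (a + t) - B.f a) / t

open Classical in
/-- a point where `s` is a subgradient (meaningful for `|s| < μ1`) -/
def aS (s : ℝ) : ℝ := if h : ∃ a, B.Sub a s then h.choose else 0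

/-- at least half of the edges of every self-avoiding walk of length `n` from `x` are in `(t2,t3]` -/
def Pei (ω : Env) (x : V) (n : ℕ) : Prop :=
  ∀ (y : V) (p : Z2.Walk x y), p.IsPath → p.length = n →
    n ≤ 2 * p.edges.countP fun e => decide (B.t2 < ω e ∧ ω e ≤ B.t3)

def PeiBox (ω : Env) (z : V) (R : ℤ) (n0 : ℕ) : Prop :=
  ∀ y ∈ box z R, ∀ n, n0 ≤ n → B.Pei ω y n

end Base

/-! averaging over the window, and the limiting order of the parameters -/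

def Ev (p : ℝ → ℕ → Prop) : Prop := ∀ᶠ ε in 𝓝[>] (0 : ℝ), ∀ᶠ N in atTop, p ε N

def wd (ε : ℝ) (N : ℕ) : ℕ := ⌊ε ^ 2 * N⌋₊

def W (ε : ℝ) (N : ℕ) : Finset V := box (0, 0) (wd ε N)

def Av (ε : ℝ) (N : ℕ) (g : V → ℝ) : ℝ := (∑ z ∈ W ε N, g z) / (W ε N).card

def lt (a ε : ℝ) (N : ℕ) : ℤ := ⌊(a - ε) * N⌋

def rt (a ε : ℝ) (N : ℕ) : ℤ := ⌈(a + ε) * N⌉

abbrev Fam := ℝ → ℕ → V → Set Env

def Base.Small (B : Base) (E : Fam) (κ : ℝ) : Prop :=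
  Ev fun ε N => Av ε N (fun z => B.Pr (E ε N z)) ≤ κ

def Base.Tiny (B : Base) (E : Fam) : Prop := ∀ κ > 0, B.Small E κ

/-- `S u z m`: gain from moving the start by `m` to the right -/
def S (N : ℤ) (ω : Env) (u : ℤ) (z : V) (m : ℤ) : ℝ := up N ω u z - up N ω u (z.1 + m, z.2)

/-- `D u u' z = up u z - up u' z`; nondecreasing in `z.1` when `u ≤ u'` -/
def D (N : ℤ) (ω : Env) (u u' : ℤ) (z : V) : ℝ := up N ω u z - up N ω u' z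

/-- lower analogue; nondecreasing in `z.1` when `v ≤ v'` -/
def D' (N : ℤ) (ω : Env) (v v' : ℤ) (z : V) : ℝ := dn N ω v z - dn N ω v' z

/-! the strong lemma -/

def Bad (N : ℤ) (u1 u2 n : ℤ) (η : ℝ) (z : V) : Set Env :=
  {ω | ∃ u, u1 ≤ u ∧ u ≤ u2 ∧ η ≤ D N ω u1 u z - D N ω u1 u (z.1 - n, z.2) ∧
    η ≤ D N ω u u2 (z.1 + n, z.2) - D N ω u u2 z}

/-- `(x', h')` is reached from `z` with deficit at most `Λ` for both targets -/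
def LaTo (N : ℤ) (ω : Env) (u1 u2 : ℤ) (Λ : ℝ) (z y : V) : Prop :=
  TA (St z.2 N) ω z y + up N ω u1 y ≤ up N ω u1 z + Λ ∧
  TA (St z.2 N) ω z y + up N ω u2 y ≤ up N ω u2 z + Λ

def La (N : ℤ) (u1 u2 : ℤ) (Λ : ℝ) (H : ℤ) (z : V) : Set Env :=
  {ω | ∃ x', LaTo N ω u1 u2 Λ z (x', z.2 + H)}

def Cr1 (N : ℤ) (u1 u2 n : ℤ) (η : ℝ) (H : ℤ) (z : V) : Set Env :=
  {ω | ∃ u x', u1 ≤ u ∧ u ≤ u2 ∧ Opt N ω u z (x', z.2 + H) ∧
    η ≤ D N ω u1 u z - D N ω u1 u (z.1 - n, z.2) ∧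
    η ≤ D N ω u u2 (z.1 - n, z.2) - D N ω u u2 (x', z.2 + H)}

def Cr2 (N : ℤ) (u1 u2 n : ℤ) (η : ℝ) (H : ℤ) (z : V) : Set Env :=
  {ω | ∃ u x', u1 ≤ u ∧ u ≤ u2 ∧ Opt N ω u z (x', z.2 + H) ∧
    η ≤ D N ω u u2 (z.1 + n, z.2) - D N ω u u2 z ∧
    η ≤ D N ω u1 u (x', z.2 + H) - D N ω u1 u (z.1 + n, z.2)}

/-- growth of `D` around `z + d` relative to the value at `z` -/
def Gr (N : ℤ) (ω : Env) (u1 u2 : ℤ) (z d : V) (R : ℤ) (L : ℝ) : Prop :=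
  D N ω u1 u2 (z.1 + d.1 - R, z.2 + d.2) + L < D N ω u1 u2 z ∧
  D N ω u1 u2 z + L < D N ω u1 u2 (z.1 + d.1 + R, z.2 + d.2)

/-! the non-extreme range -/

structure Setup extends Base where
  k0 : ℝ
  aR : ℝ
  hk : 0 < k0
  hk' : k0 < toBase.μ1
  haR : 0 < aR
  hsub : toBase.Sub aR (toBase.μ1 - k0)

namespace Setup

variable (X : Setup)

def uR (ε : ℝ) (N : ℕ) : ℤ := lt X.aR ε N

def Rg (ε : ℝ) (N : ℕ) : Set ℤ := {u | |u| ≤ X.uR ε N}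

/-- confinement at `z` (upper half) -/
def Cf (ε : ℝ) (N : ℕ) (ω : Env) (R : ℤ) (z : V) : Prop :=
  (∀ u ∈ X.Rg ε N, ∀ m : ℤ, R ≤ |m| → S N ω u z m ≤ (X.μ1 - X.k0 / 2) * |m|) ∧
  ∀ m : ℤ, R ≤ |m| → (X.μ1 - X.k0 / 4) * |m| ≤ T ω z (z.1 + m, z.2)

/-- confinement at `z` (lower half) -/
def Cf' (ε : ℝ) (N : ℕ) (ω : Env) (R : ℤ) (z : V) : Prop := X.Cf ε N (act gneg ω) R (-z)

/-- left and right ends of the class window number `j` at resolution `ν` -/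
def jl (ν : ℝ) (j : ℤ) (ε : ℝ) (N : ℕ) : ℤ := rt (X.aS ((j - 20) * ν)) ε N
def jr (ν : ℝ) (j : ℤ) (ε : ℝ) (N : ℕ) : ℤ := lt (X.aS ((j + 20) * ν)) ε N

/-- the index range -/
def JI (ν : ℝ) : Finset ℤ := Icc (-⌊(X.μ1 - X.k0 / 2) / ν⌋) ⌊(X.μ1 - X.k0 / 2) / ν⌋

/-- admissible resolutions -/
def Res (ν : ℝ) : Prop := 0 < ν ∧ 100 * ν < X.k0

end Setup

/-- `up u - up ut` oscillates by at most `η` on each row within `M` of `z`, within distance `n` -/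
def Eff (N : ℤ) (ω : Env) (u ut : ℤ) (z : V) (lo hi n : ℤ) (η : ℝ) : Prop :=
  ∀ j x x' : ℤ, lo ≤ j → j ≤ hi → |x - z.1| ≤ n → |x' - z.1| ≤ n →
    |D N ω u ut (x, z.2 + j) - D N ω u ut (x', z.2 + j)| ≤ η

def Eff' (N : ℤ) (ω : Env) (v vt : ℤ) (z : V) (lo hi n : ℤ) (η : ℝ) : Prop :=
  ∀ j x x' : ℤ, lo ≤ j → j ≤ hi → |x - z.1| ≤ n → |x' - z.1| ≤ n →
    |D' N ω v vt (x, z.2 + j) - D' N ω v vt (x', z.2 + j)| ≤ η

namespace Setup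

variable (X : Setup)

def InJ (ν : ℝ) (j : ℤ) (ε : ℝ) (N : ℕ) (u : ℤ) : Prop := X.jl ν j ε N ≤ u ∧ u ≤ X.jr ν j ε N

/-- the top target `u` is effectively in class `j` near `z` -/
def Cl (ν : ℝ) (j : ℤ) (ε : ℝ) (N : ℕ) (ω : Env) (u : ℤ) (z : V) (M n : ℤ) (η : ℝ) : Prop :=
  ∃ ut, X.InJ ν j ε N ut ∧ Eff N ω u ut z (-M) M n η

/-- the bottom target `v` is effectively in class `j` near `z` -/
def Cl' (ν : ℝ) (j : ℤ) (ε : ℝ) (N : ℕ) (ω : Env) (v : ℤ) (z : V) (M n : ℤ) (η : ℝ) : Prop :=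
  ∃ vt, X.InJ ν j ε N (-vt) ∧ Eff' N ω v vt z (-M) M n η

/-- upper mass of class `j` on row `h` between `x ≤ x'` -/
def mU (ν : ℝ) (j : ℤ) (ε : ℝ) (N : ℕ) (ω : Env) (h x x' : ℤ) : ℝ :=
  max 0 (D N ω (X.jl ν j ε N) (X.jr ν j ε N) (x', h) - D N ω (X.jl ν j ε N) (X.jr ν j ε N) (x, h))

/-- lower mass of class `j` on row `h` between `x ≤ x'` -/
def mL (ν : ℝ) (j : ℤ) (ε : ℝ) (N : ℕ) (ω : Env) (h x x' : ℤ) : ℝ :=
  max 0 (D' N ω (-X.jr ν j ε N) (-X.jl ν j ε N) (x', h) -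
    D' N ω (-X.jr ν j ε N) (-X.jl ν j ε N) (x, h))

def ThruE : Fam := fun ε N z => {ω | ∃ u ∈ X.Rg ε N, ∃ v ∈ X.Rg ε N, Thru N ω u v z}

/-- failure of the reduction to a class -/
def RedBad (ν : ℝ) (M n : ℤ) (η : ℝ) : Fam := fun ε N z =>
  {ω | ∃ u ∈ X.Rg ε N, ∃ v ∈ X.Rg ε N, Thru N ω u v z ∧
    ¬ ∃ j ∈ X.JI ν, X.Cl ν j ε N ω u z M n η ∧ X.Cl' ν j ε N ω v z M n η}

end Setup

/-- local cost at `c` between the rows `c.2` and `c.2 + r` -/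
def lc (N : ℤ) (ω : Env) (r R : ℤ) (u v : ℤ) (c : V) : ℝ :=
  ⨅ p : {p : ℤ × ℤ // |p.1 - c.1| ≤ R ∧ |p.2 - c.1| ≤ R},
    dn N ω v (p.1.1, c.2) + TA (bx c R r) ω (p.1.1, c.2) (p.1.2, c.2 + r) +
      up N ω u (p.1.2, c.2 + r)

/-- geodesic with bounded span and margin `lam` -/
def MRec (N : ℤ) (ω : Env) (R0 r0 : ℤ) (lam : ℝ) (u v : ℤ) (z : V) : Prop :=
  ∃ (p q : ℤ) (g1 : Z2.Walk (v, -N) (p, z.2)) (g2 : Z2.Walk (p, z.2) (q, z.2 + r0))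
    (g3 : Z2.Walk (q, z.2 + r0) (u, N)),
    Geo (St (-N) N) ω (g1.append (g2.append g3)) ∧ In (St (-N) z.2) g1 ∧
    In (St (z.2 + r0) N) g3 ∧ In (bx z R0 r0) g2 ∧
    ∀ g : Z2.Walk (v, -N) (u, N), In (St (-N) N) g →
      (∀ y ∈ g.support, y ∈ g2.support → y.2 ≤ z.2 ∨ z.2 + r0 ≤ y.2) →
      TS N ω (v, -N) (u, N) + lam ≤ cost ω g

namespace Setup

variable (X : Setup)

/-- near-record of class `j` -/
def NRec (ν : ℝ) (j : ℤ) (r R n : ℤ) (M : ℝ) : Fam := fun ε N c =>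
  {ω | ∃ ut vt, X.InJ ν j ε N ut ∧ X.InJ ν j ε N (-vt) ∧
    ∀ i : ℤ, 2 * R < |i| → |i| ≤ n → lc N ω r R ut vt c ≤ lc N ω r R ut vt (c.1 + i, c.2) + M}

def GL1 (ε : ℝ) (N : ℕ) (ω : Env) (r R : ℤ) (y : V) : Prop :=
  ∀ u ∈ X.Rg ε N, ∀ v ∈ X.Rg ε N, Thru N ω u v y → lc N ω r R u v y ≤ TS N ω (v, -N) (u, N)

def GL2 (ε : ℝ) (N : ℕ) (ω : Env) (R0 r0 r R : ℤ) (y : V) : Prop :=
  ∀ u ∈ X.Rg ε N, ∀ v p q : ℤ, |p - y.1| ≤ R0 → |q - y.1| ≤ R0 →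
    lc N ω r R u v y ≤ dn N ω v (p, y.2) + TA (bx y R0 r0) ω (p, y.2) (q, y.2 + r0) +
      up N ω u (q, y.2 + r0)

def MRecT (R0 r0 : ℤ) (lam : ℝ) : Fam := fun ε N z =>
  {ω | ∃ u ∈ X.Rg ε N, ∃ v ∈ X.Rg ε N, Thru N ω u v z ∧ MRec N ω R0 r0 lam u v z}

/-- two margin records of the same class at bounded distance -/
def SC (R0 r0 : ℤ) (lam : ℝ) (K : ℤ) (ν : ℝ) (M n : ℤ) (η : ℝ) : Fam := fun ε N z =>
  {ω | ∃ j ∈ X.JI ν, ∃ i : ℤ, 2 * R0 < i ∧ i ≤ K ∧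
    ∃ u ∈ X.Rg ε N, ∃ v ∈ X.Rg ε N, ∃ u' ∈ X.Rg ε N, ∃ v' ∈ X.Rg ε N,
      MRec N ω R0 r0 lam u v z ∧ MRec N ω R0 r0 lam u' v' (z.1 + i, z.2) ∧
      X.Cl ν j ε N ω u z M n η ∧ X.Cl ν j ε N ω u' z M n η ∧
      X.Cl' ν j ε N ω v z M n η ∧ X.Cl' ν j ε N ω v' z M n η}

/-- the same, with no upper mass above the base row -/
def SCL (R0 r0 : ℤ) (lam : ℝ) (K : ℤ) (ν : ℝ) (M n : ℤ) (η : ℝ) : Fam := fun ε N z =>
  {ω | ∃ j ∈ X.JI ν, ∃ i : ℤ, 2 * R0 < i ∧ i ≤ K ∧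
    ∃ u ∈ X.Rg ε N, ∃ v ∈ X.Rg ε N, ∃ u' ∈ X.Rg ε N, ∃ v' ∈ X.Rg ε N,
      MRec N ω R0 r0 lam u v z ∧ MRec N ω R0 r0 lam u' v' (z.1 + i, z.2) ∧
      X.Cl ν j ε N ω u z M n η ∧ X.Cl ν j ε N ω u' z M n η ∧
      X.Cl' ν j ε N ω v z M n η ∧ X.Cl' ν j ε N ω v' z M n η ∧
      Eff N ω u (X.jr ν j ε N) z 1 M n η ∧ Eff N ω u' (X.jr ν j ε N) z 1 M n η}

/-- two geodesics with separated lower ends merge near `z` -/
def MergeAt (N : ℤ) (ω : Env) (ρ : ℤ) (u v u' v' : ℤ) (z : V) : Prop :=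
  ∃ (x1 x2 : ℤ) (w m : V) (p1 : Z2.Walk (v, -N) (x1, z.2 - ρ)) (p2 : Z2.Walk (x1, z.2 - ρ) w)
    (p3 : Z2.Walk w m) (p4 : Z2.Walk m (u, N))
    (q1 : Z2.Walk (v', -N) (x2, z.2 - ρ)) (q2 : Z2.Walk (x2, z.2 - ρ) m) (q3 : Z2.Walk m (u', N)),
    Geo (St (-N) N) ω (p1.append (p2.append (p3.append p4))) ∧
    Geo (St (-N) N) ω (q1.append (q2.append q3)) ∧
    In (St (-N) (z.2 - ρ)) p1 ∧ In (St (-N) (z.2 - ρ)) q1 ∧
    w ∈ box z ρ ∧ m ∈ box z ρ ∧ w ∉ (q1.append (q2.append q3)).support ∧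
    1 ≤ D' N ω v v' (x2, z.2 - ρ) - D' N ω v v' (x1, z.2 - ρ)

def Merge (ρ : ℤ) (L : ℝ) (ν : ℝ) (M n : ℤ) (η : ℝ) : Fam := fun ε N z =>
  {ω | ∃ j ∈ X.JI ν, ∃ u ∈ X.Rg ε N, ∃ v ∈ X.Rg ε N, ∃ u' ∈ X.Rg ε N, ∃ v' ∈ X.Rg ε N,
    MergeAt N ω ρ u v u' v' z ∧
    (∃ vt, X.InJ ν j ε N (-vt) ∧ Eff' N ω v vt z (-M) (-ρ) n η) ∧
    (∃ vt, X.InJ ν j ε N (-vt) ∧ Eff' N ω v' vt z (-M) (-ρ) n η) ∧
    Eff N ω u (X.jr ν j ε N) z ρ M n η ∧ Eff N ω u' (X.jr ν j ε N) z ρ M n η ∧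
    X.Cl ν j ε N ω u z M n L ∧ X.Cl ν j ε N ω u' z M n L}

end Setup

end

end Vale.Agent.P158B
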