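import Vale.Agent.P158B.Prob

namespace Vale.Agent.P158B

open MeasureTheory Filter Topology Finset

/-! Levels, Peierls estimate, niceness, resampling lemma, sums of weights (job Pei). -/

theorem exists_levels (G : Measure NNReal) [IsProbabilityMeasure G] [NullSingletonClass G] :
    ∃ t1 t2 t3 : NNReal, 0 < t1 ∧ t1 < t2 ∧ t2 < t3 ∧ 0 < G.real (Set.Iio t1) ∧
      G.real (Set.Ioc t2 t3)ᶜ ≤ 1 / 256 := sorry

namespace Base

variable (B : Base)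

theorem measurableSet_pei (x : V) (n : ℕ) : MeasurableSet {ω | B.Pei ω x n} := sorry

theorem measurableSet_peiBox (z : V) (R : ℤ) (n : ℕ) : MeasurableSet {ω | B.PeiBox ω z R n} := sorry

theorem Pr_not_pei (x : V) (n : ℕ) : B.Pr {ω | ¬ B.Pei ω x n} ≤ (1 / 2) ^ n := sorry

theorem Pr_not_peiBox (z : V) (R : ℕ) (n : ℕ) :
    B.Pr {ω | ¬ B.PeiBox ω z R n} ≤ (2 * R + 1) ^ 2 * (2 * (1 / 2) ^ n) := sorry

theorem exists_peiBox (R : ℤ) {κ : ℝ} (hκ : 0 < κ) : ∃ n0 : ℕ, ∀ n, n0 ≤ n → ∀ z,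
    B.Pr {ω | ¬ B.PeiBox ω z R n} ≤ κ := sorry

theorem ae_nice : ∀ᵐ ω ∂B.P, Nice ω := sorry

/-- monotonicity of probability up to non-nice environments -/
theorem Pr_mono_nice {E F : Set Env} (h : ∀ ω, Nice ω → ω ∈ E → ω ∈ F) : B.Pr E ≤ B.Pr F := sorry

/-- The resampling lemma: the edges of `S0` are offered low values. -/
theorem resample (S0 : Finset (Sym2 V)) (A E : Set Env)
    (h : ∀ ω ∈ A, Nice ω → ∀ ω' : Env, (∀ e ∈ S0, ω' e < B.t1) →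
      (∀ S : Finset (Sym2 V), S ⊆ S0 → Nice (rs S ω ω')) →
      ∃ S : Finset (Sym2 V), S ⊆ S0 ∧ rs S ω ω' ∈ E) :
    (B.G.real (Set.Iio B.t1) / 2) ^ S0.card * B.Pr A ≤ B.Pr E := sorry

/-- form with a constant depending only on the radius of the box -/
theorem resample_box (R : ℤ) : ∃ c > 0, ∀ (z : V) (A E : Set Env),
    (∀ ω ∈ A, Nice ω → ∀ ω' : Env, (∀ e ∈ boxE z R, ω' e < B.t1) →
      (∀ S : Finset (Sym2 V), S ⊆ boxE z R → Nice (rs S ω ω')) →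
      ∃ S : Finset (Sym2 V), S ⊆ boxE z R ∧ rs S ω ω' ∈ E) → c * B.Pr A ≤ B.Pr E := sorry

theorem m1_pos : 0 < B.m1 := sorry

theorem integrable_edge (e : Sym2 V) : Integrable (fun ω : Env => (ω e : ℝ)) B.P := sorry

theorem Ex_edge (e : Sym2 V) : B.Ex (fun ω => (ω e : ℝ)) = B.m1 := sorry

theorem integrable_cost {x y : V} (p : Z2.Walk x y) : Integrable (fun ω => cost ω p) B.P := sorry

theorem Ex_cost {x y : V} (p : Z2.Walk x y) : B.Ex (fun ω => cost ω p) = B.m1 * p.length := sorry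

theorem integrable_hs (h x x' : ℤ) : Integrable (fun ω => hs ω h x x') B.P := sorry

theorem Ex_hs (h : ℤ) {x x' : ℤ} (hx : x ≤ x') :
    B.Ex (fun ω => hs ω h x x') = B.m1 * (x' - x : ℤ) := sorry

theorem integrable_vs (x h h' : ℤ) : Integrable (fun ω => vs ω x h h') B.P := sorry

theorem Ex_vs (x : ℤ) {h h' : ℤ} (hh : h ≤ h') :
    B.Ex (fun ω => vs ω x h h') = B.m1 * (h' - h : ℤ) := sorry

theorem integrable_TA {A : Set V} {x y : V} : Integrable (fun ω => TA A ω x y) B.P := sorry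

theorem Ex_TA_St_le {a b : ℤ} {x y : V} (hx : x ∈ St a b) (hy : y ∈ St a b) :
    B.Ex (fun ω => TA (St a b) ω x y) ≤ B.m1 * n1 (y - x) := sorry

theorem Ex_T_le (x y : V) : B.Ex (fun ω => T ω x y) ≤ B.m1 * n1 (y - x) := sorry

theorem exists_bsum (R : ℤ) {κ : ℝ} (hκ : 0 < κ) : ∃ C > 0, ∀ z,
    B.Pr {ω | C < bsum ω z R} ≤ κ := sorry

/-- uniform integrability of sums of weights along a walk -/
theorem ui_cost {ε : ℝ} (hε : 0 < ε) : ∃ δ > 0, ∀ (x y : V) (p : Z2.Walk x y) (E : Set Env),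
    MeasurableSet E → B.Pr E ≤ δ →
    B.Ex (E.indicator fun ω => cost ω p) ≤ ε * p.length := sorry

/-- law of large numbers on a row: all intervals of length `≤ l n` inside `[x - n, x + n]` -/
theorem row_lln {κ l : ℝ} (hκ : 0 < κ) (hl : 0 < l) : ∃ n0 : ℕ, ∀ n : ℕ, n0 ≤ n → ∀ h x : ℤ,
    B.Pr {ω | ∃ a b : ℤ, x - n ≤ a ∧ a ≤ b ∧ b ≤ x + n ∧ ((b - a : ℤ) : ℝ) ≤ l * n ∧
      2 * (B.m1 + 1) * l * n < hs ω h a b} ≤ κ := sorry

theorem col_lln {κ l : ℝ} (hκ : 0 < κ) (hl : 0 < l) : ∃ n0 : ℕ, ∀ n : ℕ, n0 ≤ n → ∀ h x : ℤ,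
    B.Pr {ω | ∃ a b : ℤ, h - n ≤ a ∧ a ≤ b ∧ b ≤ h + n ∧ ((b - a : ℤ) : ℝ) ≤ l * n ∧
      2 * (B.m1 + 1) * l * n < vs ω x a b} ≤ κ := sorry

end Base

end Vale.Agent.P158B
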