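import Vale.Agent.P158B.BasicB

namespace Vale.Agent.P158B

open MeasureTheory Filter Topology Finset

/-! Symmetries, resampling, independence, anticoncentration (job Prob). -/

theorem TA_act (g : Z2 ≃g Z2) (A : Set V) (ω : Env) (x y : V) :
    TA A (act g ω) x y = TA (g '' A) ω (g x) (g y) := sorry

theorem cost_act (g : Z2 ≃g Z2) (ω : Env) {x y : V} (p : Z2.Walk x y) :
    cost (act g ω) p = cost ω (p.map g.toHom) := sorry

theorem Nice.act {ω : Env} (h : Nice ω) (g : Z2 ≃g Z2) : Nice (act g ω) := sorry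

theorem measurable_act (g : Z2 ≃g Z2) : Measurable (act g) := sorry

@[simp] theorem gsh_apply (a z : V) : gsh a z = z + a := rfl
@[simp] theorem gneg_apply (z : V) : gneg z = -z := rfl
@[simp] theorem gflip_apply (z : V) : gflip z = (-z.1, z.2) := rfl
@[simp] theorem gswap_apply (z : V) : gswap z = (z.2, z.1) := rfl

theorem act_neg_neg (ω : Env) : act gneg (act gneg ω) = ω := sorry
theorem act_flip_flip (ω : Env) : act gflip (act gflip ω) = ω := sorry
theorem act_swap_swap (ω : Env) : act gswap (act gswap ω) = ω := sorry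

theorem T_act (g : Z2 ≃g Z2) (ω : Env) (x y : V) : T (act g ω) x y = T ω (g x) (g y) := sorry

theorem up_neg (N : ℤ) (ω : Env) (u : ℤ) (z : V) : up N (act gneg ω) u z = dn N ω (-u) (-z) := sorry

theorem dn_neg (N : ℤ) (ω : Env) (v : ℤ) (z : V) : dn N (act gneg ω) v z = up N ω (-v) (-z) := sorry

theorem TS_neg (N : ℤ) (ω : Env) (x y : V) : TS N (act gneg ω) x y = TS N ω (-x) (-y) := sorry

theorem up_flip (N : ℤ) (ω : Env) (u : ℤ) (z : V) :
    up N (act gflip ω) u z = up N ω (-u) (-z.1, z.2) := sorry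

theorem TA_St_flip (a b : ℤ) (ω : Env) (x y : V) :
    TA (St a b) (act gflip ω) x y = TA (St a b) ω (-x.1, x.2) (-y.1, y.2) := sorry

theorem TA_St_sh (a b : ℤ) (ω : Env) (x y d : V) :
    TA (St a b) (act (gsh d) ω) x y = TA (St (a + d.2) (b + d.2)) ω (x + d) (y + d) := sorry

theorem up_sh (N : ℤ) (ω : Env) (u : ℤ) (z d : V) :
    up N (act (gsh d) ω) u z = up (N + d.2) ω (u + d.1) (z + d) := sorry

theorem hs_sh (ω : Env) (h x x' : ℤ) (d : V) :
    hs (act (gsh d) ω) h x x' = hs ω (h + d.2) (x + d.1) (x' + d.1) := sorry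

theorem hs_neg (ω : Env) (h x x' : ℤ) : hs (act gneg ω) h x x' = hs ω (-h) (-x') (-x) := sorry

theorem hs_flip (ω : Env) (h x x' : ℤ) : hs (act gflip ω) h x x' = hs ω h (-x') (-x) := sorry

theorem hs_swap (ω : Env) (h x x' : ℤ) : hs (act gswap ω) h x x' = vs ω h x x' := sorry

theorem lt_neg (a ε : ℝ) (N : ℕ) : lt (-a) ε N = -rt a ε N := sorry

theorem rt_neg (a ε : ℝ) (N : ℕ) : rt (-a) ε N = -lt a ε N := sorry

namespace Base

variable (B : Base)

theorem mp_act (g : Z2 ≃g Z2) : MeasurePreserving (act g) B.P B.P := sorry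

/-- valid for every set -/
theorem Pr_act (g : Z2 ≃g Z2) (E : Set Env) : B.Pr (act g ⁻¹' E) = B.Pr E := sorry

theorem Ex_act (g : Z2 ≃g Z2) (f : Env → ℝ) : B.Ex (fun ω => f (act g ω)) = B.Ex f := sorry

theorem integrable_act (g : Z2 ≃g Z2) {f : Env → ℝ} (hf : Integrable f B.P) :
    Integrable (fun ω => f (act g ω)) B.P := sorry

theorem Pr_nonneg (E : Set Env) : 0 ≤ B.Pr E := sorry
theorem Pr_le_one (E : Set Env) : B.Pr E ≤ 1 := sorry
theorem Pr_mono {E F : Set Env} (h : E ⊆ F) : B.Pr E ≤ B.Pr F := sorry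
theorem Pr_union_le (E F : Set Env) : B.Pr (E ∪ F) ≤ B.Pr E + B.Pr F := sorry
theorem Pr_biUnion_le {ι : Type*} (s : Finset ι) (E : ι → Set Env) :
    B.Pr (⋃ i ∈ s, E i) ≤ ∑ i ∈ s, B.Pr (E i) := sorry

theorem markov {f : Env → ℝ} (hf : Integrable f B.P) (h0 : ∀ ω, 0 ≤ f ω) {c : ℝ} (hc : 0 < c) :
    B.Pr {ω | c ≤ f ω} ≤ B.Ex f / c := sorry

theorem mp_rs (S : Set (Sym2 V)) :
    MeasurePreserving (fun p : Env × Env => rs S p.1 p.2) (B.P.prod B.P) B.P := sorry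

/-- independence of events reading disjoint sets of edges -/
theorem Pr_inter_indep {S : Set (Sym2 V)} {E F : Set Env} (hE : MeasurableSet E)
    (hF : MeasurableSet F) (h1 : ∀ ω ω', (∀ e ∈ S, ω e = ω' e) → ω ∈ E → ω' ∈ E)
    (h2 : ∀ ω ω', (∀ e, e ∉ S → ω e = ω' e) → ω ∈ F → ω' ∈ F) :
    B.Pr (E ∩ F) = B.Pr E * B.Pr F := sorry

theorem anticonc {κ : ℝ} (hκ : 0 < κ) : ∃ η > 0, ∀ (e : Sym2 V) (g : Env → ℝ), Measurable g →
    (∀ ω t, g (Function.update ω e t) = g ω) → B.Pr {ω | |g ω - ω e| ≤ η} ≤ κ := sorry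

/-- counting: a pathwise bound on the number of events gives a bound on the sum of probabilities -/
theorem sum_Pr_le {ι : Type*} (s : Finset ι) (E : ι → Set Env) (hE : ∀ i ∈ s, MeasurableSet (E i))
    (Bd : Set Env) (g : Env → ℝ) (hg : Integrable g B.P) (g0 : ∀ ω, 0 ≤ g ω)
    (h : ∀ᵐ ω ∂B.P, ω ∉ Bd → ∀ s' ⊆ s, (∀ i ∈ s', ω ∈ E i) → (s'.card : ℝ) ≤ g ω) :
    ∑ i ∈ s, B.Pr (E i) ≤ B.Ex g + s.card * B.Pr Bd := sorry

/-- the expectation of a count -/
theorem Ex_count {ι : Type*} (s : Finset ι) (E : ι → Set Env) (hE : ∀ i ∈ s, MeasurableSet (E i)) :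
    Integrable (fun ω => ∑ i ∈ s, (E i).indicator (fun _ => (1 : ℝ)) ω) B.P ∧
    B.Ex (fun ω => ∑ i ∈ s, (E i).indicator (fun _ => (1 : ℝ)) ω) = ∑ i ∈ s, B.Pr (E i) := sorry

end Base

end Vale.Agent.P158B
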