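import Mathlib

/-! Statement-level definitions for P158 (planar first-passage percolation). -/

namespace Vale.Agent.P158B

open MeasureTheory Filter Topology

/-- Vertices of the square lattice. -/
abbrev V := ℤ × ℤ

/-- The nearest-neighbour graph on the square lattice. -/
def Z2 : SimpleGraph V where
  Adj x y := |x.1 - y.1| + |x.2 - y.2| = 1
  symm := ⟨fun x y h => by rwa [abs_sub_comm y.1, abs_sub_comm y.2]⟩
  loopless := ⟨fun x h => by simp at h⟩

/-- Edge weights: one number in `[0, ∞)` for each unoriented nearest-neighbour edge. -/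
abbrev Weights := Z2.edgeSet → NNReal

open Classical in
/-- The weight of an unordered pair (only ever applied to edges). -/
noncomputable def wt (t : Weights) (e : Sym2 V) : ℝ :=
  if h : e ∈ Z2.edgeSet then (t ⟨e, h⟩ : ℝ) else 0

/-- Passage time: infimum over nearest-neighbour walks of the sum of the traversed weights. -/
noncomputable def passage (t : Weights) (x y : V) : ℝ :=
  ⨅ p : Z2.Walk x y, (p.edges.map (wt t)).sum

/-- A bigeodesic. -/
def IsBigeodesic (t : Weights) (v : ℤ → V) : Prop :=
  Function.Injective v ∧ (∀ i, Z2.Adj (v i) (v (i + 1))) ∧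
    ∀ i j, i < j → ∑ k ∈ Finset.Ico i j, wt t s(v k, v (k + 1)) = passage t (v i) (v j)

/-- Independent weights with common law `G`. -/
noncomputable def iidLaw (G : Measure NNReal) [IsProbabilityMeasure G] : Measure Weights :=
  Measure.infinitePi fun _ => G

/-- `μ` is the time constant: `T(0, ⌊n v⌋) / n → μ v` almost surely, for every `v`. -/
def IsTimeConstant (G : Measure NNReal) [IsProbabilityMeasure G] (μ : ℝ × ℝ → ℝ) : Prop :=
  ∀ v : ℝ × ℝ, ∀ᵐ t ∂iidLaw G,
    Tendsto (fun n : ℕ => passage t (0, 0) (⌊(n : ℝ) * v.1⌋, ⌊(n : ℝ) * v.2⌋) / n) atTop (𝓝 (μ v))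

end Vale.Agent.P158B
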